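import Mathlib

/-!
Gluing two isomorphic collars turns an orbit with bounded boundaries into a finite action.
-/

namespace Vale.Agent.P196

open Set

variable {G : Type*} [Group G] {X : Type*} [MulAction G X]

/-- If a product leaves `F`, one of its letters leaves `F` at a point nearby. -/
lemma exit_near (S : Finset G) (hS : Subgroup.closure (S : Set G) = ⊤) (g : G) :
    ∃ P : Finset G, ∀ (F : Set X) (x : X), x ∈ F → g • x ∉ F →
      ∃ y ∈ F, (∃ s ∈ S, s • y ∉ F ∨ s⁻¹ • y ∉ F) ∧ ∃ p ∈ P, p • y = x := by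
  classical
  let Q : G → Prop := fun g => ∃ P : Finset G, ∀ (F : Set X) (x : X), x ∈ F → g • x ∉ F →
      ∃ y ∈ F, (∃ s ∈ S, s • y ∉ F ∨ s⁻¹ • y ∉ F) ∧ ∃ p ∈ P, p • y = x
  suffices H : Q g ∧ Q g⁻¹ from H.1
  have mul : ∀ a b, Q a → Q b → Q (a * b) := by
    rintro a b ⟨Pa, ha⟩ ⟨Pb, hb⟩
    refine ⟨Pb ∪ Pa.image (fun p => b⁻¹ * p), fun F x hx hgx => ?_⟩
    by_cases hbx : b • x ∈ F
    · rw [mul_smul] at hgx
      obtain ⟨y, hy, hbd, p, hp, hpy⟩ := ha F _ hbx hgx
      refine ⟨y, hy, hbd, b⁻¹ * p, Finset.mem_union_right _ (Finset.mem_image_of_mem _ hp), ?_⟩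
      rw [mul_smul, hpy, inv_smul_smul]
    · obtain ⟨y, hy, hbd, p, hp, hpy⟩ := hb F x hx hbx
      exact ⟨y, hy, hbd, p, Finset.mem_union_left _ hp, hpy⟩
  have hg : g ∈ Subgroup.closure (S : Set G) := hS ▸ Subgroup.mem_top g
  induction hg using Subgroup.closure_induction with
  | mem s hs =>
    exact ⟨⟨{1}, fun F x hx h => ⟨x, hx, ⟨s, hs, Or.inl h⟩, 1, by simp, one_smul G x⟩⟩,
      ⟨{1}, fun F x hx h => ⟨x, hx, ⟨s, hs, Or.inr h⟩, 1, by simp, one_smul G x⟩⟩⟩
  | one =>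
    exact ⟨⟨∅, fun F x hx h => absurd hx (by simpa using h)⟩,
      ⟨∅, fun F x hx h => absurd hx (by simpa using h)⟩⟩
  | mul a b _ _ ha hb =>
    exact ⟨mul a b ha.1 hb.1, by rw [mul_inv_rev]; exact mul _ _ hb.2 ha.2⟩
  | inv a _ ha => exact ⟨ha.2, by rw [inv_inv]; exact ha.1⟩

/-- The points from which some element of `D` crosses the boundary of `F`. -/
def collar (D : Finset G) (F : Set X) : Set X :=
  {x | ∃ d ∈ D, ¬(d • x ∈ F ↔ x ∈ F)}

/-- Bounded edge boundary gives bounded collars. -/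
lemma collar_bounded (S : Finset G) (hS : Subgroup.closure (S : Set G) = ⊤) (D : Finset G) (b : ℕ) :
    ∃ M : ℕ, ∀ F : Finset X,
      {x ∈ (F : Set X) | ∃ s ∈ S, s • x ∉ F ∨ s⁻¹ • x ∉ F}.ncard ≤ b →
        ∃ C : Finset X, C.card ≤ M ∧ (C : Set X) = collar D (F : Set X) := by
  classical
  choose P hP using fun g : G => exit_near (X := X) S hS g
  let E : Finset G := D.biUnion P ∪ D.biUnion fun d => (P d⁻¹).image fun p => d⁻¹ * p
  refine ⟨E.card * b, fun F hF => ?_⟩
  let Bd : Finset X := F.filter fun x => ∃ s ∈ S, s • x ∉ F ∨ s⁻¹ • x ∉ F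
  have hBd : Bd.card ≤ b := by
    rw [← Set.ncard_coe_finset]
    simpa [Bd, Finset.coe_filter] using hF
  have hsub : collar D (F : Set X) ⊆
      ((E ×ˢ Bd).image fun q => q.1 • q.2 : Finset X) := by
    rintro x ⟨d, hd, hx⟩
    rw [Finset.mem_coe, Finset.mem_image]
    by_cases hxF : x ∈ (F : Set X)
    · obtain ⟨y, hy, hbd, p, hp, hpy⟩ :=
        hP d (F : Set X) x hxF (fun h => hx (iff_of_true h hxF))
      exact ⟨(p, y), Finset.mem_product.2
        ⟨Finset.mem_union_left _ (Finset.mem_biUnion.2 ⟨d, hd, hp⟩),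
          Finset.mem_filter.2 ⟨hy, hbd⟩⟩, hpy⟩
    · have hdx : d • x ∈ (F : Set X) := by
        by_contra h
        exact hx (iff_of_false h hxF)
      obtain ⟨y, hy, hbd, p, hp, hpy⟩ :=
        hP d⁻¹ (F : Set X) (d • x) hdx (by rwa [inv_smul_smul])
      refine ⟨(d⁻¹ * p, y), Finset.mem_product.2
        ⟨Finset.mem_union_right _ (Finset.mem_biUnion.2 ⟨d, hd, Finset.mem_image_of_mem _ hp⟩),
          Finset.mem_filter.2 ⟨hy, hbd⟩⟩, ?_⟩
      show (d⁻¹ * p) • y = x
      rw [mul_smul, hpy, inv_smul_smul]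
  refine ⟨((E ×ˢ Bd).image fun q => q.1 • q.2).filter fun x => x ∈ collar D (F : Set X), ?_, ?_⟩
  · refine (Finset.card_filter_le _ _).trans (Finset.card_image_le.trans ?_)
    rw [Finset.card_product]
    exact Nat.mul_le_mul_left _ hBd
  · ext x
    simp only [Finset.coe_filter, Set.mem_setOf_eq]
    exact ⟨fun h => h.2, fun h => ⟨Finset.mem_coe.1 (hsub h), h⟩⟩

variable {n : ℕ}

/-- The value of a generator or of its inverse. -/
def letter (φ : FreeGroup (Fin n) →* G) (a : Fin n × Bool) : G :=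
  φ (FreeGroup.mk [a])

lemma letter_flip (φ : FreeGroup (Fin n) →* G) (a : Fin n × Bool) :
    letter φ (a.1, !a.2) = (letter φ a)⁻¹ := by
  rw [letter, letter, ← map_inv, FreeGroup.inv_mk]
  rfl

lemma word_cons (φ : FreeGroup (Fin n) →* G) (a : Fin n × Bool) (w : List (Fin n × Bool)) :
    φ (FreeGroup.mk (a :: w)) = letter φ a * φ (FreeGroup.mk w) := by
  rw [letter, ← map_mul, FreeGroup.mul_mk]
  rfl

/-- The gluing map: inside `F₀` jump out with `u`, outside `F₁` jump in with `v`. -/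
noncomputable def reduce (F₀ F₁ : Set X) (u v : X → X) (z : X) : X := by
  classical
  exact if z ∈ F₀ then u z else if z ∈ F₁ then z else v z

/-- Data for gluing the inner collar to the outer one. -/
structure Gluing (φ : FreeGroup (Fin n) →* G) (D : Finset G) (F₀ F₁ : Set X) (u v : X → X) :
    Prop where
  sub : F₀ ⊆ F₁
  sub' : collar D F₀ ⊆ F₁
  disj : ∀ z ∈ collar D F₁, z ∉ F₀
  u_mem : ∀ z ∈ collar D F₀, u z ∈ collar D F₁ ∧ (u z ∈ F₁ ↔ z ∈ F₀) ∧ v (u z) = z
  v_mem : ∀ z ∈ collar D F₁, v z ∈ collar D F₀ ∧ (v z ∈ F₀ ↔ z ∈ F₁) ∧ u (v z) = z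
  u_smul : ∀ a, ∀ z ∈ collar D F₀, letter φ a • z ∈ collar D F₀ →
    letter φ a • u z = u (letter φ a • z)
  v_smul : ∀ a, ∀ z ∈ collar D F₁, letter φ a • z ∈ collar D F₁ →
    letter φ a • v z = v (letter φ a • z)

variable {φ : FreeGroup (Fin n) →* G} {D : Finset G} {F₀ F₁ : Set X} {u v : X → X}

lemma reduce_self {z : X} (h₁ : z ∈ F₁) (h₀ : z ∉ F₀) : reduce F₀ F₁ u v z = z := by
  simp [reduce, h₁, h₀]

lemma Gluing.reduce_mem (h : Gluing φ D F₀ F₁ u v) {z : X}
    (hin : z ∈ F₀ → z ∈ collar D F₀) (hout : z ∉ F₁ → z ∈ collar D F₁) :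
    reduce F₀ F₁ u v z ∈ F₁ \ F₀ := by
  by_cases h₀ : z ∈ F₀
  · obtain ⟨hc, hiff, -⟩ := h.u_mem z (hin h₀)
    simp only [reduce, h₀, if_true]
    exact ⟨hiff.2 h₀, h.disj _ hc⟩
  · by_cases h₁ : z ∈ F₁
    · rw [reduce_self h₁ h₀]
      exact ⟨h₁, h₀⟩
    · obtain ⟨hc, hiff, -⟩ := h.v_mem z (hout h₁)
      simp only [reduce, h₀, if_false, h₁]
      exact ⟨h.sub' hc, fun hv => h₁ (hiff.1 hv)⟩

/-- One generator step commutes with the gluing map. -/
lemma Gluing.reduce_step (h : Gluing φ D F₀ F₁ u v) (a : Fin n × Bool) {z : X}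
    (hin : z ∈ F₀ → z ∈ collar D F₀ ∧ letter φ a • z ∈ collar D F₀)
    (hout : z ∉ F₁ → z ∈ collar D F₁ ∧ letter φ a • z ∈ collar D F₁) :
    reduce F₀ F₁ u v (letter φ a • reduce F₀ F₁ u v z)
      = reduce F₀ F₁ u v (letter φ a • z) := by
  by_cases h₀ : z ∈ F₀
  · obtain ⟨hc, hc'⟩ := hin h₀
    have hu := h.u_mem _ hc'
    have e : reduce F₀ F₁ u v z = u z := by simp [reduce, h₀]
    rw [e, h.u_smul a z hc hc']
    by_cases h' : letter φ a • z ∈ F₀
    · rw [reduce_self (hu.2.1.2 h') (h.disj _ hu.1)]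
      simp [reduce, h']
    · have hne : u (letter φ a • z) ∉ F₁ := fun hh => h' (hu.2.1.1 hh)
      have e₁ : reduce F₀ F₁ u v (u (letter φ a • z)) = letter φ a • z := by
        simp [reduce, h.disj _ hu.1, hne, hu.2.2]
      rw [e₁, reduce_self (h.sub' hc') h']
  · by_cases h₁ : z ∈ F₁
    · rw [reduce_self h₁ h₀]
    · obtain ⟨hc, hc'⟩ := hout h₁
      have hv := h.v_mem _ hc'
      have e : reduce F₀ F₁ u v z = v z := by simp [reduce, h₀, h₁]
      rw [e, h.v_smul a z hc hc']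
      by_cases h' : letter φ a • z ∈ F₁
      · have hin' : v (letter φ a • z) ∈ F₀ := hv.2.1.2 h'
        rw [reduce_self h' (h.disj _ hc')]
        simp [reduce, hin', hv.2.2]
      · have hne : v (letter φ a • z) ∉ F₀ := fun hh => h' (hv.2.1.1 hh)
        rw [reduce_self (h.sub' hv.1) hne]
        simp [reduce, h.disj _ hc', h']

/-- The glued action of a generator on the middle part. -/
noncomputable def step (φ : FreeGroup (Fin n) →* G) (u v : X → X) (F₀ F₁ : Set X)
    (a : Fin n × Bool) (y : X) : X :=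
  reduce F₀ F₁ u v (letter φ a • y)

lemma Gluing.step_mem (h : Gluing φ D F₀ F₁ u v) (hD : ∀ a, letter φ a ∈ D) (a : Fin n × Bool)
    {y : X} (hy : y ∈ F₁ \ F₀) : step φ u v F₀ F₁ a y ∈ F₁ \ F₀ := by
  have back : letter φ (a.1, !a.2) • letter φ a • y = y := by
    rw [letter_flip, inv_smul_smul]
  refine h.reduce_mem (fun hz => ?_) (fun hz => ?_)
  · refine ⟨_, hD (a.1, !a.2), ?_⟩
    rw [back]
    exact fun hiff => hy.2 (hiff.2 hz)
  · refine ⟨_, hD (a.1, !a.2), ?_⟩
    rw [back]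
    exact fun hiff => hz (hiff.1 hy.1)

/-- Following a short word in the glued action is the gluing of following it in `X`. -/
lemma Gluing.word_eq (h : Gluing φ D F₀ F₁ u v) {r : ℕ}
    (hD : ∀ w : List (Fin n × Bool), w.length ≤ r → φ (FreeGroup.mk w) ∈ D)
    {y : X} (hy : y ∈ F₁ \ F₀) :
    ∀ w : List (Fin n × Bool), w.length ≤ r →
      w.foldr (step φ u v F₀ F₁) y = reduce F₀ F₁ u v (φ (FreeGroup.mk w) • y) := by
  intro w
  induction w with
  | nil =>
    intro _
    rw [← FreeGroup.one_eq_mk, map_one, one_smul, reduce_self hy.1 hy.2]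
    rfl
  | cons a w ih =>
    intro hw
    have hw' : w.length ≤ r := by
      simp only [List.length_cons] at hw
      omega
    rw [List.foldr_cons, ih hw', word_cons, mul_smul]
    have inv_mem : ∀ l : List (Fin n × Bool), l.length ≤ r → (φ (FreeGroup.mk l))⁻¹ ∈ D := by
      intro l hl
      rw [← map_inv, FreeGroup.inv_mk]
      exact hD _ (by rw [FreeGroup.invRev_length]; exact hl)
    set z := φ (FreeGroup.mk w) • y with hz
    have hback : (φ (FreeGroup.mk w))⁻¹ • z = y := inv_smul_smul _ _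
    have hback' : (φ (FreeGroup.mk (a :: w)))⁻¹ • (letter φ a • z) = y := by
      rw [hz, ← mul_smul (letter φ a), ← word_cons, inv_smul_smul]
    have hl : letter φ a ∈ D := hD [a] (by simp only [List.length_cons, List.length_nil] at hw ⊢; omega)
    have hl' : (letter φ a)⁻¹ ∈ D :=
      inv_mem [a] (by simp only [List.length_cons, List.length_nil] at hw ⊢; omega)
    have crossed : ∀ (F : Set X), ¬(y ∈ F ↔ z ∈ F) →
        z ∈ collar D F ∧ letter φ a • z ∈ collar D F := by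
      intro F hF
      refine ⟨⟨_, inv_mem w hw', by rwa [hback]⟩, ?_⟩
      by_cases haz : letter φ a • z ∈ F ↔ z ∈ F
      · refine ⟨_, inv_mem (a :: w) hw, ?_⟩
        rw [hback']
        exact fun hh => hF (hh.trans haz)
      · refine ⟨_, hl', ?_⟩
        rw [inv_smul_smul]
        exact fun hh => haz hh.symm
    exact h.reduce_step a (fun hz₀ => crossed _ fun hh => hy.2 (hh.2 hz₀))
      (fun hz₁ => crossed _ fun hh => hz₁ (hh.1 hy.1))

/-- The glued finite set carries an action killing every short relator. -/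
lemma Gluing.exists_action (h : Gluing φ D F₀ F₁ u v) {r : ℕ} (hr : 2 ≤ r)
    (hD : ∀ w : List (Fin n × Bool), w.length ≤ r → φ (FreeGroup.mk w) ∈ D) :
    ∃ Φ : FreeGroup (Fin n) →* Equiv.Perm ↥(F₁ \ F₀),
      (∀ x : FreeGroup (Fin n), x.toWord.length ≤ r → φ x = 1 → Φ x = 1) ∧
      (∀ (a : Fin n × Bool) (y : ↥(F₁ \ F₀)),
        (Φ (FreeGroup.mk [a]) y : X) = step φ u v F₀ F₁ a y) := by
  have hD₁ : ∀ a, letter φ a ∈ D := fun a =>
    hD [a] (by simp only [List.length_cons, List.length_nil]; omega)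
  have cancel : ∀ a (y : ↥(F₁ \ F₀)),
      step φ u v F₀ F₁ (a.1, !a.2) (step φ u v F₀ F₁ a y) = (y : X) := by
    intro a y
    have := h.word_eq hD y.2 [(a.1, !a.2), a]
      (by simp only [List.length_cons, List.length_nil]; omega)
    rw [word_cons, ← letter, letter_flip, inv_mul_cancel, one_smul,
      reduce_self y.2.1 y.2.2] at this
    simpa using this
  let σ : Fin n → Equiv.Perm ↥(F₁ \ F₀) := fun i =>
    { toFun := fun y => ⟨_, h.step_mem hD₁ (i, true) y.2⟩
      invFun := fun y => ⟨_, h.step_mem hD₁ (i, false) y.2⟩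
      left_inv := fun y => Subtype.ext (cancel (i, true) y)
      right_inv := fun y => Subtype.ext (cancel (i, false) y) }
  let Φ := FreeGroup.lift σ
  have one : ∀ (a : Fin n × Bool) (y : ↥(F₁ \ F₀)),
      (Φ (FreeGroup.mk [a]) y : X) = step φ u v F₀ F₁ a y := by
    rintro ⟨i, _ | _⟩ y <;> simp [Φ, FreeGroup.lift_mk] <;> rfl
  have all : ∀ (w : List (Fin n × Bool)) (y : ↥(F₁ \ F₀)),
      (Φ (FreeGroup.mk w) y : X) = w.foldr (step φ u v F₀ F₁) (y : X) := by
    intro w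
    induction w with
    | nil =>
      intro y
      rw [← FreeGroup.one_eq_mk, map_one]
      rfl
    | cons a w ih =>
      intro y
      rw [show FreeGroup.mk (a :: w) = FreeGroup.mk [a] * FreeGroup.mk w by
        rw [FreeGroup.mul_mk]; rfl, map_mul, Equiv.Perm.mul_apply, one, ih]
      rfl
  refine ⟨Φ, fun x hx h1 => ?_, one⟩
  refine Equiv.ext fun y => Subtype.ext ?_
  have e := all x.toWord y
  rw [FreeGroup.mk_toWord, h.word_eq hD y.2 _ hx, FreeGroup.mk_toWord, h1, one_smul,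
    reduce_self y.2.1 y.2.2] at e
  simpa using e

end Vale.Agent.P196
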