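import Vale.Agent.P196.Glue

/-!
Finitely presented groups without finite quotients have no thin infinite orbits.
-/

namespace Vale.Agent.P196

open Set

universe v w

variable {G : Type v} [Group G]

/-- Finite homomorphic images of a group without proper normal finite-index subgroups are trivial. -/
lemma finite_image_trivial (hq : ∀ N : Subgroup G, N.Normal → N.FiniteIndex → N = ⊤)
    {K : Type w} [Group K] [Finite K] (f : G →* K) : f = 1 := by
  have hfi : f.ker.FiniteIndex := by
    rw [Subgroup.finiteIndex_iff, Subgroup.index_ker]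
    exact Nat.card_ne_zero.2 ⟨inferInstance, inferInstance⟩
  ext g
  have hg : g ∈ f.ker := (hq _ inferInstance hfi).symm ▸ Subgroup.mem_top g
  simpa using hg

lemma fixed_of_generators {X : Type w} [MulAction G X] {T : Set G}
    (hT : Subgroup.closure T = ⊤) {x : X} (h : ∀ s ∈ T, s • x = x) (g : G) : g • x = x := by
  have hle : Subgroup.closure T ≤ MulAction.stabilizer G x :=
    (Subgroup.closure_le _).2 fun s hs => h s hs
  exact hle (hT ▸ Subgroup.mem_top g)

section Core

variable [Group.IsFinitelyPresented G]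
  (hq : ∀ N : Subgroup G, N.Normal → N.FiniteIndex → N = ⊤)

include hq in
/-- No infinite orbit is exhausted by finite sets with bounded boundary. -/
theorem no_thin_orbit {X : Type w} [MulAction G X] [MulAction.IsPretransitive G X] [Infinite X]
    (S : Finset G) (hS : Subgroup.closure (S : Set G) = ⊤) (b : ℕ) :
    ¬ ∀ A : Finset X, ∃ F : Finset X, A ⊆ F ∧
      {x ∈ (F : Set X) | ∃ s ∈ S, s • x ∉ F ∨ s⁻¹ • x ∉ F}.ncard ≤ b := by
  classical
  intro hex
  obtain ⟨n, φ, hφ, R, hR, hker⟩ := Group.IsFinitelyPresented.out (G := G)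
  let R' : Finset (FreeGroup (Fin n)) := hR.toFinset
  let r : ℕ := 2 + R'.sup fun x => x.toWord.length
  let D : Finset G := ((List.finite_length_le (Fin n × Bool) r).image
    fun w => φ (FreeGroup.mk w)).toFinset
  have hD : ∀ w : List (Fin n × Bool), w.length ≤ r → φ (FreeGroup.mk w) ∈ D := fun w hw => by
    simp only [D, Set.Finite.mem_toFinset]
    exact ⟨w, hw, rfl⟩
  have hD₁ : ∀ a, letter φ a ∈ D := fun a =>
    hD [a] (by simp only [List.length_cons, List.length_nil, r]; omega)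
  obtain ⟨M, hM⟩ := collar_bounded (X := X) S hS D b
  have hgood : ∀ A : Finset X, ∃ (F C : Finset X) (e : ↥C → Fin M),
      A ⊆ F ∧ (C : Set X) = collar D (F : Set X) ∧ Function.Injective e := by
    intro A
    obtain ⟨F, hAF, hF⟩ := hex A
    obtain ⟨C, hC, hCF⟩ := hM F hF
    exact ⟨F, C, fun x => Fin.castLE hC (C.equivFin x), hAF, hCF,
      (Fin.castLE_injective hC).comp C.equivFin.injective⟩
  choose F C e hAF hCF he using hgood
  let ty : Finset X → Finset (Fin M) × Finset (Fin M) × Finset (Fin M × Fin M × (Fin n × Bool)) :=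
    fun A => ((C A).attach.image (e A), ((C A).attach.filter fun x : ↥(C A) => (x : X) ∈ F A).image (e A),
      ((((C A).attach ×ˢ (C A).attach) ×ˢ (Finset.univ : Finset (Fin n × Bool))).filter
        fun q => letter φ q.2 • (q.1.1 : X) = q.1.2).image fun q => (e A q.1.1, e A q.1.2, q.2))
  obtain ⟨t, ht⟩ : ∃ t, ∀ A : Finset X, ∃ B, A ⊆ B ∧ ty B = t := by
    by_contra hno
    push Not at hno
    choose bad hbad using hno
    exact hbad (ty (Finset.univ.biUnion bad)) (Finset.univ.biUnion bad)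
      (Finset.subset_biUnion_of_mem bad (Finset.mem_univ _)) rfl
  obtain ⟨A₀, -, hA₀⟩ := ht ∅
  let T₀ : Finset X := F A₀ ∪ C A₀
  let Bad : Finset X :=
    T₀ ∪ (Finset.univ : Finset (Fin n × Bool)).biUnion fun a => T₀.image fun z => letter φ a • z
  obtain ⟨y, hy⟩ := Infinite.exists_notMem_finset Bad
  have hgen : Subgroup.closure (Set.range fun i : Fin n => φ (FreeGroup.of i)) = ⊤ := by
    rw [← MonoidHom.range_eq_top.2 hφ, MonoidHom.range_eq_map,
      ← FreeGroup.closure_range_of (Fin n), MonoidHom.map_closure, ← Set.range_comp]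
    rfl
  obtain ⟨i, hi⟩ : ∃ i : Fin n, φ (FreeGroup.of i) • y ≠ y := by
    by_contra hno
    push Not at hno
    obtain ⟨z, hz⟩ := Infinite.exists_notMem_finset ({y} : Finset X)
    obtain ⟨g, rfl⟩ := MulAction.exists_smul_eq G y z
    exact hz (Finset.mem_singleton.2
      (fixed_of_generators hgen (by rintro _ ⟨j, rfl⟩; exact hno j) g))
  have hlet : letter φ (i, true) = φ (FreeGroup.of i) := rfl
  let T₁ : Finset X := T₀ ∪ {y, φ (FreeGroup.of i) • y}
  obtain ⟨A₁, hTA, hA₁⟩ := ht (T₁ ∪ (D ×ˢ T₁).image fun q => q.1 • q.2)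
  have hF₁ : ∀ x ∈ T₁, x ∈ F A₁ := fun x hx => hAF A₁ (hTA (Finset.mem_union_left _ hx))
  have hF₁' : ∀ d ∈ D, ∀ x ∈ T₁, d • x ∈ F A₁ := fun d hd x hx => hAF A₁
    (hTA (Finset.mem_union_right _
      (Finset.mem_image.2 ⟨(d, x), Finset.mem_product.2 ⟨hd, hx⟩, rfl⟩)))
  have transfer : ∀ A B, ty A = ty B → ∃ u : X → X, ∀ z (hz : z ∈ C A), ∃ hu : u z ∈ C B,
      e B ⟨u z, hu⟩ = e A ⟨z, hz⟩ ∧ (u z ∈ F B ↔ z ∈ F A) ∧
        ∀ a, letter φ a • z ∈ C A → letter φ a • u z = u (letter φ a • z) := by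
    intro A B hAB
    obtain ⟨h₁, h₂, h₃⟩ :
        (ty A).1 = (ty B).1 ∧ (ty A).2.1 = (ty B).2.1 ∧ (ty A).2.2 = (ty B).2.2 := by
      rw [hAB]; exact ⟨rfl, rfl, rfl⟩
    simp only [ty] at h₁ h₂ h₃
    have hpick : ∀ z, ∃ z', ∀ hz : z ∈ C A, ∃ hz' : z' ∈ C B, e B ⟨z', hz'⟩ = e A ⟨z, hz⟩ := by
      intro z
      by_cases hz : z ∈ C A
      · have hm : e A ⟨z, hz⟩ ∈ (C B).attach.image (e B) :=
          h₁ ▸ Finset.mem_image_of_mem _ (Finset.mem_attach _ _)
        obtain ⟨⟨z', hz'⟩, -, heq⟩ := Finset.mem_image.1 hm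
        exact ⟨z', fun _ => ⟨hz', heq⟩⟩
      · exact ⟨z, fun h => absurd h hz⟩
    choose u hu using hpick
    refine ⟨u, fun z hz => ?_⟩
    obtain ⟨huz, heq⟩ := hu z hz
    refine ⟨huz, heq, ⟨fun h => ?_, fun h => ?_⟩, fun a ha => ?_⟩
    · have hm : e B ⟨u z, huz⟩ ∈
          ((C A).attach.filter fun x : ↥(C A) => (x : X) ∈ F A).image (e A) :=
        h₂ ▸ Finset.mem_image_of_mem _ (Finset.mem_filter.2 ⟨Finset.mem_attach _ _, h⟩)
      obtain ⟨p, hp, hpe⟩ := Finset.mem_image.1 hm
      have := he A (hpe.trans heq)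
      rw [this] at hp
      exact (Finset.mem_filter.1 hp).2
    · have hm : e A ⟨z, hz⟩ ∈
          ((C B).attach.filter fun x : ↥(C B) => (x : X) ∈ F B).image (e B) :=
        h₂ ▸ Finset.mem_image_of_mem _ (Finset.mem_filter.2 ⟨Finset.mem_attach _ _, h⟩)
      obtain ⟨p, hp, hpe⟩ := Finset.mem_image.1 hm
      have := he B (hpe.trans heq.symm)
      rw [this] at hp
      exact (Finset.mem_filter.1 hp).2
    · obtain ⟨hw, hweq⟩ := hu (letter φ a • z) ha
      have hmem : (e A ⟨z, hz⟩, e A ⟨_, ha⟩, a) ∈ ((((C A).attach ×ˢ (C A).attach) ×ˢ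
          (Finset.univ : Finset (Fin n × Bool))).filter
            fun q => letter φ q.2 • (q.1.1 : X) = q.1.2).image
              fun q => (e A q.1.1, e A q.1.2, q.2) :=
        Finset.mem_image.2 ⟨((⟨z, hz⟩, ⟨_, ha⟩), a), Finset.mem_filter.2
          ⟨Finset.mem_product.2 ⟨Finset.mem_product.2
            ⟨Finset.mem_attach _ _, Finset.mem_attach _ _⟩, Finset.mem_univ _⟩, rfl⟩, rfl⟩
      rw [h₃, Finset.mem_image] at hmem
      obtain ⟨⟨⟨p, q⟩, a'⟩, hf, heqs⟩ := hmem
      simp only [Prod.mk.injEq] at heqs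
      obtain ⟨hp, hq', rfl⟩ := heqs
      have e₁ := he B (hp.trans heq.symm)
      have e₂ := he B (hq'.trans hweq.symm)
      rw [e₁, e₂] at hf
      exact (Finset.mem_filter.1 hf).2
  have hty : ty A₀ = ty A₁ := hA₀.trans hA₁.symm
  obtain ⟨u, hu⟩ := transfer A₀ A₁ hty
  obtain ⟨v, hv⟩ := transfer A₁ A₀ hty.symm
  have mem₀ : ∀ {z}, z ∈ collar D (F A₀ : Set X) → z ∈ C A₀ := fun {z} h => by
    rwa [← hCF, Finset.mem_coe] at h
  have mem₁ : ∀ {z}, z ∈ collar D (F A₁ : Set X) → z ∈ C A₁ := fun {z} h => by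
    rwa [← hCF, Finset.mem_coe] at h
  have hglue : Gluing φ D (F A₀ : Set X) (F A₁ : Set X) u v := by
    constructor
    · exact fun z hz => hF₁ z (Finset.mem_union_left _ (Finset.mem_union_left _ hz))
    · exact fun z hz => hF₁ z (Finset.mem_union_left _ (Finset.mem_union_right _ (mem₀ hz)))
    · rintro z ⟨d, hd, hd'⟩ hz
      have hzT : z ∈ T₁ := Finset.mem_union_left _ (Finset.mem_union_left _ hz)
      exact hd' (iff_of_true (hF₁' d hd z hzT) (hF₁ z hzT))
    · intro z hz
      obtain ⟨huz, heq, hiff, -⟩ := hu z (mem₀ hz)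
      refine ⟨by rwa [← hCF, Finset.mem_coe], hiff, ?_⟩
      obtain ⟨hvz, heq', -, -⟩ := hv (u z) huz
      exact congrArg Subtype.val (he A₀ (heq'.trans heq))
    · intro z hz
      obtain ⟨hvz, heq, hiff, -⟩ := hv z (mem₁ hz)
      refine ⟨by rwa [← hCF, Finset.mem_coe], hiff, ?_⟩
      obtain ⟨huz, heq', -, -⟩ := hu (v z) hvz
      exact congrArg Subtype.val (he A₁ (heq'.trans heq))
    · intro a z hz haz
      obtain ⟨-, -, -, hequiv⟩ := hu z (mem₀ hz)
      exact hequiv a (mem₀ haz)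
    · intro a z hz haz
      obtain ⟨-, -, -, hequiv⟩ := hv z (mem₁ hz)
      exact hequiv a (mem₁ haz)
  obtain ⟨Φ, hΦ, hone⟩ := hglue.exists_action (r := r) (by omega) hD
  have hle : φ.ker ≤ Φ.ker := by
    rw [← hker]
    refine Subgroup.normalClosure_le_normal fun x hx => ?_
    refine hΦ x ?_ ?_
    · have : x.toWord.length ≤ R'.sup fun x => x.toWord.length :=
        Finset.le_sup (f := fun x : FreeGroup (Fin n) => x.toWord.length) (hR.mem_toFinset.2 hx)
      omega
    · rw [← MonoidHom.mem_ker, ← hker]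
      exact Subgroup.subset_normalClosure hx
  have hfin : Finite ↥((F A₁ : Set X) \ (F A₀ : Set X)) :=
    ((F A₁).finite_toSet.sdiff).to_subtype
  have htriv := finite_image_trivial hq (φ.liftOfSurjective hφ ⟨Φ, hle⟩)
  have hΦi : Φ (FreeGroup.of i) = 1 := by
    have := DFunLike.congr_fun htriv (φ (FreeGroup.of i))
    rwa [MonoidHom.liftOfRightInverse_comp_apply, MonoidHom.one_apply] at this
  have hy₀ : y ∉ F A₀ := fun h => hy (Finset.mem_union_left _ (Finset.mem_union_left _ h))
  have hy₁ : y ∈ F A₁ := hF₁ y (Finset.mem_union_right _ (Finset.mem_insert_self _ _))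
  have hsy₀ : φ (FreeGroup.of i) • y ∉ F A₀ := by
    intro h
    refine hy (Finset.mem_union_right _ (Finset.mem_biUnion.2 ⟨(i, false), Finset.mem_univ _,
      Finset.mem_image.2 ⟨_, Finset.mem_union_left _ h, ?_⟩⟩))
    show letter φ (i, !true) • _ = y
    rw [letter_flip φ (i, true), hlet, inv_smul_smul]
  have hsy₁ : φ (FreeGroup.of i) • y ∈ F A₁ :=
    hF₁ _ (Finset.mem_union_right _ (Finset.mem_insert_of_mem (Finset.mem_singleton_self _)))
  have key := hone (i, true) ⟨y, hy₁, hy₀⟩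
  rw [show FreeGroup.mk [(i, true)] = FreeGroup.of i from rfl, hΦi] at key
  simp only [Equiv.Perm.one_apply, step, hlet] at key
  rw [reduce_self (F₀ := (F A₀ : Set X)) (F₁ := (F A₁ : Set X)) hsy₁ hsy₀] at key
  exact hi key.symm

include hq in
/-- No infinite orbit has balls of linear size along arbitrarily large radii. -/
theorem no_linear_orbit {X : Type w} [MulAction G X] [MulAction.IsPretransitive G X] [Infinite X]
    (S : Finset G) (hS : Subgroup.closure (S : Set G) = ⊤) (x₀ : X) (c : ℕ)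
    (ball : ℕ → Finset X) (h₀ : x₀ ∈ ball 0)
    (hstep : ∀ k, ∀ x ∈ ball k, x ∈ ball (k + 1) ∧
      ∀ s ∈ S, s • x ∈ ball (k + 1) ∧ s⁻¹ • x ∈ ball (k + 1)) :
    ¬ ∀ N, ∃ k, N ≤ k ∧ (ball k).card ≤ c * k := by
  classical
  intro hlin
  refine no_thin_orbit (X := X) hq S hS (2 * c) fun A => ?_
  have mono : ∀ k m, k ≤ m → ball k ⊆ ball m := by
    intro k m hkm
    induction hkm with
    | refl => exact Finset.Subset.refl _
    | step _ ih => exact fun x hx => (hstep _ x (ih hx)).1
  have reach : ∀ g : G, ∃ k, g • x₀ ∈ ball k := by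
    intro g
    suffices H : ∀ g : G, ∀ x, (∃ k, x ∈ ball k) →
        (∃ k, g • x ∈ ball k) ∧ (∃ k, g⁻¹ • x ∈ ball k) from (H g x₀ ⟨0, h₀⟩).1
    intro g
    have hg : g ∈ Subgroup.closure (S : Set G) := hS ▸ Subgroup.mem_top g
    induction hg using Subgroup.closure_induction with
    | mem s hs =>
      rintro x ⟨k, hk⟩
      exact ⟨⟨k + 1, ((hstep k x hk).2 s hs).1⟩, ⟨k + 1, ((hstep k x hk).2 s hs).2⟩⟩
    | one => intro x hx; simpa using hx
    | mul a b _ _ ha hb =>
      intro x hx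
      refine ⟨?_, ?_⟩
      · rw [mul_smul]; exact (ha _ (hb x hx).1).1
      · rw [mul_inv_rev, mul_smul]; exact (hb _ (ha x hx).2).2
    | inv a _ ha =>
      intro x hx
      exact ⟨(ha x hx).2, by rw [inv_inv]; exact (ha x hx).1⟩
  have reach' : ∀ x : X, ∃ k, x ∈ ball k := fun x => by
    obtain ⟨g, rfl⟩ := MulAction.exists_smul_eq G x₀ x
    exact reach g
  choose rad hrad using reach'
  let j₀ := A.sup rad
  have hA : A ⊆ ball j₀ := fun x hx => mono _ _ (Finset.le_sup hx) (hrad x)
  obtain ⟨k, hk, hcard⟩ := hlin (2 * j₀ + 2)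
  by_contra hno
  push Not at hno
  have grow : ∀ i, (2 * c + 1) * i ≤ (ball (j₀ + i)).card := by
    intro i
    induction i with
    | zero => simp
    | succ i ih =>
      have hb := hno (ball (j₀ + i + 1)) (hA.trans (mono _ _ (by omega)))
      let Sph := ball (j₀ + i + 1) \ ball (j₀ + i)
      have hsph : 2 * c < Sph.card := by
        refine hb.trans_le ?_
        rw [← Set.ncard_coe_finset]
        refine Set.ncard_le_ncard ?_ (Finset.finite_toSet _)
        rintro x ⟨hx, s, hs, hout⟩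
        refine Finset.mem_coe.2 (Finset.mem_sdiff.2 ⟨hx, fun hx' => ?_⟩)
        rcases hout with h | h
        · exact h ((hstep _ x hx').2 s hs).1
        · exact h ((hstep _ x hx').2 s hs).2
      have hcs : Sph.card + (ball (j₀ + i)).card = (ball (j₀ + i + 1)).card :=
        Finset.card_sdiff_add_card_eq_card (mono _ _ (by omega))
      rw [Nat.mul_succ]
      rw [← Nat.add_assoc j₀ i 1]
      omega
  have := grow (k - j₀)
  rw [show j₀ + (k - j₀) = k by omega] at this
  have h2 : c * k + 1 ≤ (2 * c + 1) * (k - j₀) := by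
    have h3 : k + 1 ≤ 2 * (k - j₀) := by omega
    have h4 : c * (k + 1) ≤ c * (2 * (k - j₀)) := Nat.mul_le_mul_left c h3
    have h5 : 1 ≤ k - j₀ := by omega
    calc c * k + 1 ≤ c * (k + 1) + 1 :=
          Nat.add_le_add_right (Nat.mul_le_mul_left c (Nat.le_succ k)) 1
      _ ≤ c * (2 * (k - j₀)) + (k - j₀) := by omega
      _ = (2 * c + 1) * (k - j₀) := by ring
  omega

include hq in
/-- An action moving points boundedly along one permutation is trivial. -/
theorem bounded_along_perm_trivial {Y : Type w} (ψ : Equiv.Perm Y) (f : G →* Equiv.Perm Y)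
    (hf : ∀ g, ∃ d : ℕ, ∀ y, ∃ k : ℤ, k.natAbs ≤ d ∧ f g y = (ψ ^ k) y) : f = 1 := by
  classical
  let : MulAction G Y := MulAction.compHom Y f
  have hsmul : ∀ (g : G) (y : Y), g • y = f g y := fun _ _ => rfl
  ext g y
  rw [MonoidHom.one_apply, Equiv.Perm.one_apply, ← hsmul]
  by_cases hfin : Finite (MulAction.orbit G y)
  · have h1 := finite_image_trivial hq (MulAction.toPermHom G (MulAction.orbit G y))
    have h2 := congrArg Subtype.val
      (Equiv.Perm.ext_iff.1 (DFunLike.congr_fun h1 g) ⟨y, MulAction.mem_orbit_self y⟩)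
    simpa using h2
  · have : Infinite (MulAction.orbit G y) := not_finite_iff_infinite.1 hfin
    exfalso
    choose d hd using hf
    obtain ⟨S, hS⟩ : ∃ S : Finset G, Subgroup.closure (S : Set G) = ⊤ := by
      obtain ⟨n, φ, hφ, -⟩ := Group.IsFinitelyPresented.out (G := G)
      refine ⟨Finset.univ.image fun i : Fin n => φ (FreeGroup.of i), ?_⟩
      rw [Finset.coe_image, Finset.coe_univ, Set.image_univ, ← MonoidHom.range_eq_top.2 hφ,
        MonoidHom.range_eq_map, ← FreeGroup.closure_range_of (Fin n), MonoidHom.map_closure,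
        ← Set.range_comp]
      rfl
    let E : ℕ := S.sup d + S.sup fun s => d s⁻¹
    let O := MulAction.orbit G y
    let B : ℕ → Set O := fun m => {o | ∃ k : ℤ, k.natAbs ≤ m * E ∧ (o : Y) = (ψ ^ k) y}
    have hB : ∀ m, (B m).Finite := by
      intro m
      refine Set.Finite.of_finite_image (((Finset.Icc (-((m * E : ℕ) : ℤ))
        ((m * E : ℕ) : ℤ)).image fun k : ℤ => (ψ ^ k) y).finite_toSet.subset ?_)
        Subtype.val_injective.injOn
      rintro _ ⟨o, ⟨k, hk, ho⟩, rfl⟩
      simp only [Finset.coe_image, Finset.coe_Icc, Set.mem_image, Set.mem_Icc]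
      exact ⟨k, by omega, ho.symm⟩
    let ball : ℕ → Finset O := fun m => (hB m).toFinset
    refine no_linear_orbit hq S hS (⟨y, MulAction.mem_orbit_self y⟩ : O) (2 * E + 1) ball ?_ ?_ ?_
    · simp only [ball, Set.Finite.mem_toFinset]
      exact ⟨0, by simp, by simp⟩
    · intro m o ho
      simp only [ball, Set.Finite.mem_toFinset] at ho ⊢
      obtain ⟨k, hk, ho⟩ := ho
      refine ⟨⟨k, hk.trans (Nat.mul_le_mul_right E (Nat.le_succ m)), ho⟩, fun s hs => ?_⟩
      have hle : ∀ t : G, d t ≤ E → ∃ j : ℤ, j.natAbs ≤ (m + 1) * E ∧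
          ((t • o : O) : Y) = (ψ ^ j) y := by
        intro t ht
        obtain ⟨j, hj, hj'⟩ := hd t (o : Y)
        refine ⟨j + k, ?_, ?_⟩
        · rw [add_one_mul]
          have := Int.natAbs_add_le j k
          omega
        · rw [MulAction.orbit.coe_smul, hsmul, hj', ho, zpow_add, Equiv.Perm.mul_apply]
      constructor
      · exact hle s ((Finset.le_sup hs).trans (Nat.le_add_right _ _))
      · exact hle s⁻¹ ((Finset.le_sup (f := fun s => d s⁻¹) hs).trans (Nat.le_add_left _ _))
    · intro N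
      refine ⟨N + 1, Nat.le_succ N, ?_⟩
      have h1 : ((ball (N + 1)).image Subtype.val).card = (ball (N + 1)).card :=
        Finset.card_image_of_injective _ Subtype.val_injective
      rw [← h1]
      refine (Finset.card_le_card (t := (Finset.Icc (-(((N + 1) * E : ℕ) : ℤ))
        (((N + 1) * E : ℕ) : ℤ)).image fun k : ℤ => (ψ ^ k) y) ?_).trans
          (Finset.card_image_le.trans ?_)
      · intro z hz
        simp only [ball, Finset.mem_image, Set.Finite.mem_toFinset] at hz
        obtain ⟨o, ⟨k, hk, ho⟩, rfl⟩ := hz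
        simp only [Finset.mem_image, Finset.mem_Icc]
        exact ⟨k, by omega, ho.symm⟩
      · rw [Int.card_Icc]
        have : (2 * E + 1) * (N + 1) = 2 * ((N + 1) * E) + (N + 1) := by ring
        omega

end Core

/-- An infinite simple group has no proper normal subgroup of finite index. -/
lemma simple_no_finite_index [IsSimpleGroup G] [Infinite G] :
    ∀ N : Subgroup G, N.Normal → N.FiniteIndex → N = ⊤ := by
  intro N hN hfi
  rcases hN.eq_bot_or_eq_top with h | h
  · subst h
    exact absurd (by simp) hfi.index_ne_zero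
  · exact h

end Vale.Agent.P196
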